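import Vale.Agent.P060.H467.Red

/-!
# P060 / H467: a constant factor below Hadwiger's bound, step 3

One design for every large parameter `k`, which serves all orders `n` between `2521 ^ (13 k)` and `2521 ^ (15 k)`; so
every large `n` is served.
-/

set_option autoImplicit false

open scoped Classical

noncomputable section

namespace Vale.Agent.P060.HW

namespace ConstN

open Filter

/-- All numerical estimates, for all orders in a window. -/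
lemma numerics' (C : ℝ) (hC : 1 ≤ C) (D₀ d c : ℕ) : ∃ k₀ : ℕ, ∀ k : ℕ, k₀ ≤ k → ∀ kk : ℕ,
    k ≤ kk → kk ≤ 3 * k → ∀ t : ℕ, t ≤ 2 * D₀ * k * d → 0 < t →
    ∀ n : ℕ, 2521 ^ (13 * k) ≤ n → n ≤ 2521 ^ (15 * k) →
    C / (n : ℝ) ≤ ((2521 : ℝ) ^ (2 * kk))⁻¹ ∧
    (t : ℝ) * Real.sqrt (C * (Real.log (n : ℝ)) ^ 2 / (n : ℝ)) ≤ 1 / 2000 ∧
    C * (Real.log (n : ℝ)) ^ 2 / (n : ℝ) <
      ((2521 : ℝ) ^ (4 * kk + c))⁻¹ / 400 * (1 / (400 * (((2 * t : ℕ) : ℝ)) ^ 2)) ^ 2 ∧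
    400 * (n : ℝ) ^ C ≤ (2521 : ℝ) ^ ((15 * C + 1) * (k : ℝ)) ∧
    1600 * (((2 * t : ℕ) : ℝ)) ≤ (k : ℝ) ^ (15 * C + 1) := by
  have hC0 : 0 < C := by linarith
  set A : ℝ := C * 14400 * (4 * 10 ^ 6) * (2 * D₀ * d + 1) ^ 2 with hA
  set B : ℝ := C * 14400 * 400 * (400 ^ 2) * (4 * D₀ * d + 1) ^ 4 * 2521 ^ c * 2 with hB
  have e1 := ev_poly A 4
  have e2 := ev_poly B 6
  have e4 := eventually_ge_atTop (⌈C⌉₊)
  have e5 := eventually_ge_atTop (6400 * D₀ * d + 1)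
  obtain ⟨k₀, hk₀⟩ := eventually_atTop.1 (e1.and (e2.and (e4.and e5)))
  refine ⟨k₀, fun k hk kk h1 h2 t ht ht0 n hn1 hn2 => ?_⟩
  obtain ⟨g1, g2, g4, g5⟩ := hk₀ k hk
  have hk1 : 1 ≤ k := by omega
  have hkR : (1 : ℝ) ≤ k := by exact_mod_cast hk1
  have h2R : (kk : ℝ) ≤ 3 * k := by exact_mod_cast h2
  have htR : (t : ℝ) ≤ 2 * D₀ * k * d := by exact_mod_cast ht
  have ht0R : (0 : ℝ) < t := by exact_mod_cast ht0
  have hL : (0 : ℝ) < (2521 : ℝ) ^ (13 * k) := by positivity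
  have hLn : (2521 : ℝ) ^ (13 * k) ≤ (n : ℝ) := by exact_mod_cast hn1
  have hUn : (n : ℝ) ≤ (2521 : ℝ) ^ (15 * k) := by exact_mod_cast hn2
  have hn0 : (0 : ℝ) < n := lt_of_lt_of_le hL hLn
  have hn1' : (1 : ℝ) ≤ n := le_trans (one_le_pow₀ (by norm_num)) hLn
  have hlog0 : 0 ≤ Real.log (n : ℝ) := Real.log_nonneg hn1'
  have hlog : Real.log (n : ℝ) ≤ 120 * k := by
    have h3 : Real.log (n : ℝ) ≤ Real.log ((2521 : ℝ) ^ (15 * k)) := Real.log_le_log hn0 hUn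
    rw [Real.log_pow] at h3
    push_cast at h3
    have h4 := log_le
    have h5 : (15 * (k : ℝ)) * Real.log 2521 ≤ (15 * (k : ℝ)) * 8 :=
      mul_le_mul_of_nonneg_left h4 (by positivity)
    linarith only [h3, h5]
  have hlog2 : (Real.log (n : ℝ)) ^ 2 ≤ 14400 * (k : ℝ) ^ 2 := by
    calc (Real.log (n : ℝ)) ^ 2 ≤ (120 * (k : ℝ)) ^ 2 := pow_le_pow_left₀ hlog0 hlog 2
      _ = 14400 * (k : ℝ) ^ 2 := by ring
  have hI : C * (Real.log (n : ℝ)) ^ 2 / (n : ℝ) ≤ C * (14400 * (k : ℝ) ^ 2) / (2521 : ℝ) ^ (13 * k) := by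
    apply div_le_div₀ (by positivity) (mul_le_mul_of_nonneg_left hlog2 hC0.le) hL hLn
  have hpk : ∀ i j : ℕ, i ≤ j → (2521 : ℝ) ^ i ≤ (2521 : ℝ) ^ j := fun i j hj =>
    pow_le_pow_right₀ (by norm_num) hj
  have hkpow : k ≤ 2521 ^ k := (Nat.lt_pow_self (by norm_num)).le
  refine ⟨?_, ?_, ?_, ?_, ?_⟩
  · rw [div_le_iff₀ hn0]
    have h3 : C ≤ k := (Nat.le_ceil C).trans (by exact_mod_cast g4)
    have h4 : (k : ℝ) ≤ 2521 ^ k := by exact_mod_cast hkpow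
    have h5 : C * (2521 : ℝ) ^ (2 * kk) ≤ n := by
      calc C * (2521 : ℝ) ^ (2 * kk) ≤ (2521 : ℝ) ^ k * (2521 : ℝ) ^ (12 * k) :=
            mul_le_mul (h3.trans h4) (hpk _ _ (by omega)) (by positivity) (by positivity)
        _ = (2521 : ℝ) ^ (13 * k) := by rw [← pow_add]; congr 1; ring
        _ ≤ n := hLn
    rw [inv_mul_eq_div, le_div_iff₀ (by positivity)]
    exact h5
  · have h3 : (t : ℝ) * Real.sqrt (C * (Real.log (n : ℝ)) ^ 2 / (n : ℝ)) =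
        Real.sqrt ((t : ℝ) ^ 2 * (C * (Real.log (n : ℝ)) ^ 2 / (n : ℝ))) := by
      rw [Real.sqrt_mul (by positivity), Real.sqrt_sq ht0R.le]
    rw [h3]
    apply Real.sqrt_le_iff.2
    refine ⟨by norm_num, ?_⟩
    have h4 : (t : ℝ) ^ 2 * (C * (Real.log (n : ℝ)) ^ 2 / (n : ℝ))
        ≤ (2 * D₀ * k * d) ^ 2 * (C * (14400 * (k : ℝ) ^ 2) / (2521 : ℝ) ^ (13 * k)) := by
      apply mul_le_mul (pow_le_pow_left₀ ht0R.le htR 2) hI
      · positivity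
      · positivity
    refine h4.trans ?_
    rw [← mul_div_assoc, div_le_iff₀ hL]
    have h5 : (2521 : ℝ) ^ k ≤ (2521 : ℝ) ^ (13 * k) := hpk _ _ (by omega)
    have h6 : (2 * (D₀ : ℝ) * d) ^ 2 ≤ (2 * D₀ * d + 1) ^ 2 := by
      apply pow_le_pow_left₀ (by positivity)
      linarith only []
    have h7 : (2 * (D₀ : ℝ) * k * d) ^ 2 * (C * (14400 * (k : ℝ) ^ 2))
        = (C * 14400 * (k : ℝ) ^ 4) * (2 * D₀ * d) ^ 2 := by ring
    rw [h7]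
    have h8 : (C * 14400 * (k : ℝ) ^ 4) * (2 * D₀ * d) ^ 2
        ≤ (C * 14400 * (k : ℝ) ^ 4) * (2 * D₀ * d + 1) ^ 2 :=
      mul_le_mul_of_nonneg_left h6 (by positivity)
    have h9 : (C * 14400 * (k : ℝ) ^ 4) * (2 * D₀ * d + 1) ^ 2
        = (1 / 2000) ^ 2 * (A * (k : ℝ) ^ 4) := by
      rw [hA]; ring
    refine h8.trans ?_
    rw [h9]
    apply mul_le_mul_of_nonneg_left (g1.trans h5) (by norm_num)
  · refine lt_of_le_of_lt hI ?_
    have ht1 : (((2 * t : ℕ) : ℝ)) ≤ (4 * D₀ * d + 1) * k := by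
      push_cast
      linarith only [htR, hkR]
    have ht2 : (0 : ℝ) < (((2 * t : ℕ) : ℝ)) := by push_cast; linarith only [ht0R]
    set u : ℝ := (((2 * t : ℕ) : ℝ)) with hu
    rw [div_lt_iff₀ hL]
    have h3 : ((2521 : ℝ) ^ (4 * kk + c))⁻¹ / 400 * (1 / (400 * u ^ 2)) ^ 2 * 2521 ^ (13 * k)
        = 2521 ^ (13 * k) / (2521 ^ (4 * kk) * (2521 ^ c * 400 * 400 ^ 2 * u ^ 4)) := by
      rw [pow_add]
      field_simp
    rw [h3, lt_div_iff₀ (by positivity)]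
    have h4 : u ^ 4 ≤ ((4 * D₀ * d + 1) * k) ^ 4 := pow_le_pow_left₀ ht2.le ht1 4
    have h5 : C * (14400 * (k : ℝ) ^ 2) * (2521 ^ c * 400 * 400 ^ 2 * u ^ 4)
        ≤ C * (14400 * (k : ℝ) ^ 2) * (2521 ^ c * 400 * 400 ^ 2 * ((4 * D₀ * d + 1) * k) ^ 4) := by
      apply mul_le_mul_of_nonneg_left _ (by positivity)
      exact mul_le_mul_of_nonneg_left h4 (by positivity)
    have h6 : C * (14400 * (k : ℝ) ^ 2) * (2521 ^ c * 400 * 400 ^ 2 * ((4 * D₀ * d + 1) * k) ^ 4)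
        = B * (k : ℝ) ^ 6 / 2 := by
      rw [hB]; ring
    have h7 : (0 : ℝ) < 2521 ^ k := by positivity
    have h8 : C * (14400 * (k : ℝ) ^ 2) * (2521 ^ c * 400 * 400 ^ 2 * u ^ 4) < 2521 ^ k := by
      rw [h6] at h5
      linarith only [h5, g2, h7]
    calc C * (14400 * (k : ℝ) ^ 2) * (2521 ^ (4 * kk) * (2521 ^ c * 400 * 400 ^ 2 * u ^ 4))
        = 2521 ^ (4 * kk) * (C * (14400 * (k : ℝ) ^ 2) * (2521 ^ c * 400 * 400 ^ 2 * u ^ 4)) := by ring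
      _ < 2521 ^ (4 * kk) * 2521 ^ k := mul_lt_mul_of_pos_left h8 (by positivity)
      _ ≤ 2521 ^ (12 * k) * 2521 ^ k :=
          mul_le_mul_of_nonneg_right (hpk _ _ (by omega)) (by positivity)
      _ = 2521 ^ (13 * k) := by rw [← pow_add]; congr 1; ring
  · have h3 : (n : ℝ) ^ C ≤ (2521 : ℝ) ^ (15 * C * (k : ℝ)) := by
      calc (n : ℝ) ^ C ≤ ((2521 : ℝ) ^ (15 * k)) ^ C := Real.rpow_le_rpow hn0.le hUn hC0.le
        _ = (2521 : ℝ) ^ (15 * C * (k : ℝ)) := by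
            rw [← Real.rpow_natCast, ← Real.rpow_mul (by norm_num)]
            push_cast
            ring_nf
    have h5 : (400 : ℝ) ≤ (2521 : ℝ) ^ (k : ℝ) := by
      calc (400 : ℝ) ≤ (2521 : ℝ) ^ (1 : ℝ) := by rw [Real.rpow_one]; norm_num
        _ ≤ _ := Real.rpow_le_rpow_of_exponent_le (by norm_num) hkR
    calc 400 * (n : ℝ) ^ C ≤ (2521 : ℝ) ^ (k : ℝ) * (2521 : ℝ) ^ (15 * C * (k : ℝ)) := by
          apply mul_le_mul h5 h3 (by positivity) (by positivity)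
      _ = _ := by
          rw [← Real.rpow_add (by norm_num)]
          ring_nf
  · have h3 : (k : ℝ) ^ (2 : ℝ) ≤ (k : ℝ) ^ (15 * C + 1) :=
      Real.rpow_le_rpow_of_exponent_le hkR (by linarith only [hC0, hC])
    refine le_trans ?_ h3
    rw [Real.rpow_two]
    push_cast
    have h4 : (6400 * (D₀ : ℝ) * d + 1) ≤ k := by exact_mod_cast g5
    have h5 : (6400 * (D₀ : ℝ) * d + 1) * k ≤ k * k := mul_le_mul_of_nonneg_right h4 (by linarith only [hkR])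
    linarith only [h5, htR, hkR]

/-- **The choice of the constants and of a good design**, for every large parameter `k`, serving a window of orders. -/
theorem exists_good' (hF : FrameInst) (h1 : Ex1) (hC : ExC) (hT : TVLS) (hA : NotOutA)
    (c : ℕ) {εJ ε ε₂ : ℝ} (hεJ : 0 < εJ) (hε : 0 < ε) (hε₂ : 0 < ε₂) (C : ℝ)
    (hC1 : 1 ≤ C) (n1 : ℕ) :
    ∃ K : ℕ, ∀ k : ℕ, K ≤ k →
    ∃ (E₀ d N m κ kk : ℕ) (_ : NeZero N) (fr : Frame N d (Fin E₀) (Fin m))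
      (p : Lin N → Co (Fin E₀) (Fin k) (Fin m) → F) (h : Ext fr p),
      kk = Fintype.card (Co (Fin E₀) (Fin k) (Fin m)) ∧
      n1 ≤ N ∧ 0 < d ∧ EvJ fr εJ ∧ EvC p d ε₂ ∧
      TVLSAt fr p h (15 * C + 1) ε ∧ RowsAt fr p κ ∧
      NotOutAAt fr p h C ((2521 : ℝ) ^ (2 * kk))⁻¹ ∧
      ∀ n : ℕ, 2521 ^ (13 * k) ≤ n → n ≤ 2521 ^ (15 * k) →
        C / (n : ℝ) ≤ ((2521 : ℝ) ^ (2 * kk))⁻¹ ∧
        ((N * d : ℕ) : ℝ) * Real.sqrt (C * (Real.log (n : ℝ)) ^ 2 / (n : ℝ)) ≤ 1 / 2000 ∧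
        C * (Real.log (n : ℝ)) ^ 2 / (n : ℝ) <
          ((2521 : ℝ) ^ (4 * kk + c))⁻¹ / 400 * (1 / (400 * (((2 * (N * d) : ℕ) : ℝ)) ^ 2)) ^ 2 ∧
        400 * (n : ℝ) ^ C ≤ (2521 : ℝ) ^ ((15 * C + 1) * (k : ℝ)) ∧
        1600 * (((2 * (N * d) : ℕ) : ℝ)) ≤ (k : ℝ) ^ (15 * C + 1) := by
  obtain ⟨E₀, hF⟩ := hF εJ hεJ
  obtain ⟨D₁, hT⟩ := hT (Fin E₀) (15 * C + 1) ε hε
  obtain ⟨D₂, hC⟩ := hC ε₂ hε₂
  obtain ⟨D₃, hA⟩ := hA C
  set D₀ : ℕ := max (max D₁ D₂) (max D₃ 1) with hD₀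
  have hD01 : D₀ ≥ D₁ := le_trans (le_max_left _ _) (le_max_left _ _)
  have hD02 : D₀ ≥ D₂ := le_trans (le_max_right _ _) (le_max_left _ _)
  have hD03 : D₀ ≥ D₃ := le_trans (le_max_left _ _) (le_max_right _ _)
  have hD04 : 1 ≤ D₀ := le_trans (le_max_right _ _) (le_max_right _ _)
  obtain ⟨d₁, hT⟩ := hT D₀ hD01
  set d : ℕ := max d₁ 1 with hd
  have hd1 : d ≥ d₁ := le_max_left _ _
  have hd0 : 0 < d := lt_of_lt_of_le one_pos (le_max_right _ _)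
  obtain ⟨C₁, θ₁, hθ₁, k₁, hT⟩ := hT d hd1
  obtain ⟨θ₂, hθ₂, k₂, hC⟩ := hC D₀ hD02 d (Fin E₀) hd0
  obtain ⟨θ₃, hθ₃, k₃, hA⟩ := hA D₀ hD03 d (Fin E₀) hd0
  obtain ⟨θ₄, hθ₄, k₄, h1⟩ := h1 D₀ d (Fin E₀)
  set θ₅ : ℝ := 1 / ((D₀ : ℝ) + 20) ^ 2 with hθ₅
  have hθ₅0 : 0 < θ₅ := by (clear * -; positivity)
  set θ : ℝ := min (min θ₁ θ₂) (min (min θ₃ θ₄) (min θ₅ 1)) with hθ
  have hθ0 : 0 < θ := lt_min (lt_min hθ₁ hθ₂) (lt_min (lt_min hθ₃ hθ₄) (lt_min hθ₅0 one_pos))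
  have t1 : θ ≤ θ₁ := (min_le_left _ _).trans (min_le_left _ _)
  have t2 : θ ≤ θ₂ := (min_le_left _ _).trans (min_le_right _ _)
  have t3 : θ ≤ θ₃ := (min_le_right _ _).trans ((min_le_left _ _).trans (min_le_left _ _))
  have t4 : θ ≤ θ₄ := (min_le_right _ _).trans ((min_le_left _ _).trans (min_le_right _ _))
  have t5 : θ ≤ θ₅ := (min_le_right _ _).trans ((min_le_right _ _).trans (min_le_left _ _))
  have t6 : θ ≤ 1 := (min_le_right _ _).trans ((min_le_right _ _).trans (min_le_right _ _))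
  set C₂ : ℝ := max C₁ 0 with hC₂
  have c1 : C₁ ≤ C₂ := le_max_left _ _
  have c2 : 0 ≤ C₂ := le_max_right _ _
  obtain ⟨k₅, hF⟩ := hF D₀ d hD04 θ hθ0 C₂
  obtain ⟨k₆, hN⟩ := numerics' C hC1 D₀ d c
  refine ⟨max (max (max k₁ k₂) (max k₃ k₄)) (max (max k₅ k₆)
    (max (max (E₀ + 1) n1) (7 * (D₀ + 20) ^ 2))), fun k hk => ?_⟩
  have q1 : k₁ ≤ k := by omega
  have q2 : k₂ ≤ k := by omega
  have q3 : k₃ ≤ k := by omega
  have q4 : k₄ ≤ k := by omega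
  have q5 : k₅ ≤ k := by omega
  have q6 : k₆ ≤ k := by omega
  have q7 : E₀ + 1 ≤ k := by omega
  have q8 : n1 ≤ k := by omega
  have q9 : 7 * (D₀ + 20) ^ 2 ≤ k :=
    le_trans (le_trans (le_max_right _ _) ((le_max_right _ _).trans (le_max_right _ _))) hk
  have hDsq : 0 < (D₀ + 20) ^ 2 := by (clear * -; positivity)
  have hk0 : 0 < k := by omega
  obtain ⟨N, m, hNZ, fr, hS, hJ⟩ := hF k q5
  have hcP : Fintype.card (Fin k) = k := Fintype.card_fin k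
  have hS1 : Sizes fr (Fin k) D₀ θ₁ C₁ := sizes_mono t1 c1 hS
  have hS2 : Sizes fr (Fin k) D₀ θ₂ 0 := sizes_mono t2 c2 hS
  have hS3 : Sizes fr (Fin k) D₀ θ₃ 0 := sizes_mono t3 c2 hS
  have hS4 : Sizes fr (Fin k) D₀ θ₄ 0 := sizes_mono t4 c2 hS
  obtain ⟨G, hG, hT⟩ := hT N (Fin k) (Fin m) fr (by rw [hcP]; exact q1) hS1
  have hC' := hC N (Fin k) (Fin m) fr (by rw [hcP]; exact q2) hS2
  have h1' := h1 N (Fin k) (Fin m) fr (by rw [hcP]; exact q4) hS4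
  obtain ⟨p, hp1, hp2, hp3⟩ := exists_avoid hG h1' hC'
  have hpG : p ∈ G := by
    by_contra h
    exact hp1 h
  have hpC : EvC p.1 d ε₂ := by
    by_contra h
    exact hp3 h
  have hp1 : ∀ κ : ℕ, κ ≤ 20 * Fintype.card (Fin k) / (D₀ + 20) ^ 2 → Ev1 p.1 κ := by
    by_contra h
    exact hp2 h
  -- the row lines
  have hrow := row_bound hS t5 (by rw [hcP]; exact q9)
  have hrow' : ∀ w, 12 + (rowLines fr w).card ≤ 20 * Fintype.card (Fin k) / (D₀ + 20) ^ 2 :=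
    fun w => (hrow w).trans (Nat.div_le_div_right (by omega))
  have h12 : 12 ≤ 20 * Fintype.card (Fin k) / (D₀ + 20) ^ 2 := by
    rw [hcP, Nat.le_div_iff_mul_le hDsq]
    omega
  have hOut := hA N (Fin k) (Fin m) fr p.1 p.2 (by rw [hcP]; exact q3) hS3 hp1 hrow
  have hNk : D₀ * k ≤ N := by
    have := hS.hN
    rwa [hcP] at this
  have hNk' : N ≤ 2 * D₀ * k := by
    have := hS.hN'
    rwa [hcP] at this
  have hNk1 : k ≤ N := le_trans (Nat.le_mul_of_pos_left k hD04) hNk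
  have hOmk : (m : ℝ) ≤ k := by
    have := hS.hOm
    rw [hcP, Fintype.card_fin] at this
    refine this.trans ?_
    have : θ * (k : ℝ) ≤ 1 * k := mul_le_mul_of_nonneg_right t6 (Nat.cast_nonneg _)
    linarith only [this]
  have hOmk' : m ≤ k := by exact_mod_cast hOmk
  have hK : Fintype.card (Co (Fin E₀) (Fin k) (Fin m)) = E₀ + k + m := by
    rw [Fintype.card_sum, Fintype.card_sum, Fintype.card_fin, Fintype.card_fin, Fintype.card_fin]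
  obtain ⟨kk, hkk⟩ : ∃ kk, kk = Fintype.card (Co (Fin E₀) (Fin k) (Fin m)) := ⟨_, rfl⟩
  have hN' := hN k q6 kk (by rw [hkk, hK]; omega)
    (by rw [hkk, hK]; omega) (N * d) (Nat.mul_le_mul_right d hNk')
    (Nat.mul_pos (lt_of_lt_of_le hk0 hNk1) hd0)
  refine ⟨E₀, d, N, m, _, kk, hNZ, fr, p.1, p.2, hkk, q8.trans hNk1, hd0, hJ, hpC,
    hT p hpG, ⟨h12, hrow', hp1 _ le_rfl⟩, ?_, hN'⟩
  rw [← hkk] at hOut
  exact hOut

end ConstN

open ConstN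

/-- Every order beyond `2521 ^ (13 K)` lies in one of the windows. -/
lemma exists_window (K : ℕ) {n : ℕ} (hn : 2521 ^ (13 * (K + 7)) ≤ n) :
    ∃ k : ℕ, K ≤ k ∧ 2521 ^ (13 * k) ≤ n ∧ n ≤ 2521 ^ (15 * k) := by
  have hb : 1 < 2521 ^ 13 := by norm_num
  have hn0 : n ≠ 0 := by
    have : 0 < 2521 ^ (13 * (K + 7)) := by positivity
    omega
  set k := Nat.log (2521 ^ 13) n with hk
  have h1 : (2521 ^ 13) ^ k ≤ n := Nat.pow_log_le_self _ hn0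
  have h2 : n < (2521 ^ 13) ^ (k + 1) := Nat.lt_pow_succ_log_self hb n
  have h3 : K + 7 ≤ k := by
    apply Nat.le_log_of_pow_le hb
    rw [← pow_mul]
    exact hn
  refine ⟨k, by omega, by rw [pow_mul]; exact h1, ?_⟩
  refine h2.le.trans ?_
  rw [← pow_mul]
  exact Nat.pow_le_pow_right (by norm_num) (by omega)

/-- **Hosts of every large order.** -/
theorem hosts_of (hF : FrameInst) (h1 : Ex1) (hC : ExC) (hT : TVLS) (hO : Overlap)
    (hA : NotOutA) (C' : ℝ) : ∃ n0 : ℕ, ∀ n : ℕ, n0 ≤ n →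
    ∃ (X : Type) (_ : Fintype X) (_ : Nonempty X)
      (Adj : X → X → Prop), (∀ x y, Adj x y → Adj y x) ∧
      (∀ x y z, Adj x y → Adj y z → Adj x z → False) ∧ ¬ OutA Adj C' (C' / n) ∧
      ¬ OutC Adj ((n : ℝ) ^ C') (1 / 2000) (C' * (Real.log n) ^ 2 / n) := by
  obtain ⟨c, ε₁, hε₁, hov⟩ := overlapEst_of hO
  set C : ℝ := max C' 1 with hCdef
  have hC1 : 1 ≤ C := le_max_right _ _
  have hCC : C' ≤ C := le_max_left _ _
  set ε₀ : ℝ := min ε₁ (1 / 1000) with hε₀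
  have hε₀0 : 0 < ε₀ := lt_min hε₁ (by norm_num)
  obtain ⟨K, hK⟩ := exists_good' hF h1 hC hT hA c (εJ := 1 / 64000) (ε := ε₀) (ε₂ := 1 / 2000)
      (by norm_num) hε₀0 (by norm_num) C hC1 192000
  refine ⟨2521 ^ (13 * (K + 7)), fun n hn => ?_⟩
  obtain ⟨k, hk, hn1, hn2⟩ := exists_window K hn
  obtain ⟨E₀, d, N, m, κ, kk, hNZ, fr, p, h, hkk, hN, hd, hJ, hEvC, htv, hrows, hnA, hg⟩ := hK k hk
  obtain ⟨g1, g2, g3, g4, g5⟩ := hg n hn1 hn2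
  have hN0 : (0 : ℝ) < N := by exact_mod_cast Nat.pos_of_ne_zero (NeZero.ne N)
  have hnum : 2 * ε₀ + 192 / (N : ℝ) + 64 * (1 / 64000 : ℝ) ≤ 1 / 100 := by
    have e1 : ε₀ ≤ 1 / 1000 := min_le_right _ _
    have e2 : 192 / (N : ℝ) ≤ 1 / 1000 := by
      rw [div_le_iff₀ hN0]
      have : (192000 : ℝ) ≤ N := by exact_mod_cast hN
      linarith only [this]
    linarith only [hε₀0, e1, e2]
  obtain ⟨X, hX1, hX2, Adj, a1, a2, a3, a4⟩ := host_of_good (n := n) fr p h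
    (fun Λ Λ' M' ε e1 e2 e3 => hov N d (Fin E₀) (Fin k) (Fin m) fr p h κ Λ Λ' M' ε ε₀
      (1 / 64000) hrows.1 hrows.2.1 hrows.2.2 hd hJ hε₀0.le (min_le_left _ _) hnum e1 e2 e3)
    hkk hd hEvC htv hnA g1 g2 g3 (by rw [Fintype.card_fin]; exact g4)
    (by rw [Fintype.card_fin]; exact g5)
  have hnpos : 1 ≤ n := le_trans (Nat.one_le_pow _ _ (by norm_num)) hn1
  refine ⟨X, hX1, hX2, Adj, a1, a2, ?_, ?_⟩
  · intro hout
    refine a3 (outA_mono hCC ?_ hout)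
    exact div_le_div_of_nonneg_right hCC (Nat.cast_nonneg _)
  · intro hout
    refine a4 (outC_mono ?_ le_rfl ?_ hout)
    · apply Real.rpow_le_rpow_of_exponent_le _ hCC
      exact_mod_cast hnpos
    · apply div_le_div_of_nonneg_right _ (Nat.cast_nonneg _)
      exact mul_le_mul_of_nonneg_right hCC (sq_nonneg _)

/-- **All large orders**: a graph on `n` vertices with independence number at most two and Hadwiger number less than
`(1 / 2 - 10 ^ (-13)) n`. -/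
theorem gap_order : ∃ n0 : ℕ, ∀ n : ℕ, n0 ≤ n → ∃ G : SimpleGraph (Fin n), G.indepNum ≤ 2 ∧
    (hadwigerNumber G : ℝ) < (1 / 2 - 1 / 10 ^ 13) * n := by
  obtain ⟨C, n1, hred⟩ := reduction_trunc' (1 / 2000) (by norm_num)
  obtain ⟨n2, hhost⟩ := hosts_of frameInst ex1 exC (tvls_of (tv_of tvK2 TvS.tvSel tvLoc ex1) ls ldFam)
    overlap notOutA C
  refine ⟨max n1 n2, fun n hn => ?_⟩
  by_contra hcon
  push Not at hcon
  obtain ⟨X, _, _, Adj, hs, ht, hA, hB⟩ := hhost n ((le_max_right _ _).trans hn)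
  rcases hred n ((le_max_left _ _).trans hn) (fun G hG => by
    have h1 := hcon G hG
    have h2 := dlt_num
    have h3 : (1 / 2 - dlt (min (1 / 2000) 1 / 40) / 6) * (n : ℝ) ≤ (1 / 2 - 1 / 10 ^ 13) * n :=
      mul_le_mul_of_nonneg_right (by linarith only [h2]) (Nat.cast_nonneg _)
    exact h3.trans h1) X Adj hs ht with h | h
  · exact hA h
  · exact hB h

end Vale.Agent.P060.HW
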