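import Vale.Agent.P060.H467.Fin

/-!
# P060 / H467: a constant factor below Hadwiger's bound, conclusion
-/

set_option autoImplicit false

open scoped Classical

noncomputable section

namespace Vale.Agent.P060.HW

/-- `G` has no clique minor larger than its Hadwiger number. -/
lemma not_minor_of_lt {n s : ℕ} {G : SimpleGraph (Fin n)} (h : hadwigerNumber G < s) :
    ¬ HasCliqueMinor G s := by
  intro hs
  have h1 : s ≤ hadwigerNumber G := le_csSup ⟨n, fun t ht => minor_le_card G ht⟩ hs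
  omega

/-- In terms of the number of colours: lower bound of the chromatic number. -/
lemma half_le_of_colorable {n : ℕ} {G : SimpleGraph (Fin n)} (hG : G.indepNum ≤ 2) {k : ℕ}
    (hk : G.Colorable k) : (n : ℝ) / 2 ≤ k := by
  have h := card_le_of_colorable G hG hk
  have h2 : (n : ℝ) ≤ 2 * k := by exact_mod_cast h
  linarith

/-- **All large `t`**: a graph without `K_(t+1)` minor whose chromatic number exceeds `(1 + 2 * 10 ^ (-13)) t`. -/
theorem gap_t : ∃ t₀ : ℕ, ∀ t : ℕ, t₀ ≤ t → ∃ (n : ℕ) (G : SimpleGraph (Fin n)),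
    G.indepNum ≤ 2 ∧ ¬ HasCliqueMinor G (t + 1) ∧
    (∀ k : ℕ, G.Colorable k → (1 + 2 / 10 ^ 13) * (t : ℝ) < k) ∧
    (hadwigerNumber G : ℕ∞) < G.chromaticNumber := by
  obtain ⟨n0, hn0⟩ := gap_order
  refine ⟨n0, fun t ht => ?_⟩
  set c : ℝ := 1 / 2 - 1 / 10 ^ 13 with hc
  have hc0 : 0 < c := by rw [hc]; norm_num
  set n : ℕ := ⌊((t : ℝ) + 1) / c⌋₊ with hn
  have h1 : (n : ℝ) ≤ ((t : ℝ) + 1) / c := Nat.floor_le (by positivity)
  have h2 : ((t : ℝ) + 1) / c < n + 1 := Nat.lt_floor_add_one _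
  have h1' : c * n ≤ t + 1 := by
    rw [le_div_iff₀ hc0] at h1
    linarith
  have h2' : (t : ℝ) + 1 < c * (n + 1) := by
    rw [div_lt_iff₀ hc0] at h2
    linarith
  have ht0 : (0 : ℝ) ≤ t := Nat.cast_nonneg _
  have hnn : (0 : ℝ) ≤ n := Nat.cast_nonneg _
  have hn' : (n : ℝ) / 2 > (1 + 2 / 10 ^ 13) * (t : ℝ) := by
    have e1 : (1 + 2 / 10 ^ 13) * c ≤ 1 / 2 := by rw [hc]; norm_num
    have e2 : (1 + 2 / 10 ^ 13) * ((t : ℝ) + 1) ≤ (1 + 2 / 10 ^ 13) * (c * (n + 1)) :=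
      mul_le_mul_of_nonneg_left h2'.le (by norm_num)
    have e3 : (1 + 2 / 10 ^ 13) * (c * ((n : ℝ) + 1)) ≤ 1 / 2 * (n + 1) := by
      rw [← mul_assoc]
      exact mul_le_mul_of_nonneg_right e1 (by linarith)
    nlinarith
  have hnt : n0 ≤ n := by
    have e1 : (t : ℝ) ≤ n := by
      have : (t : ℝ) ≤ (1 + 2 / 10 ^ 13) * (t : ℝ) := by nlinarith
      linarith
    have e2 : t ≤ n := by exact_mod_cast e1
    exact ht.trans e2
  obtain ⟨G, hG, hh⟩ := hn0 n hnt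
  have hlt : hadwigerNumber G < t + 1 := by
    have : (hadwigerNumber G : ℝ) < ((t + 1 : ℕ) : ℝ) := by push_cast; linarith
    exact_mod_cast this
  have hcol : ∀ k : ℕ, G.Colorable k → (1 + 2 / 10 ^ 13) * (t : ℝ) < k := fun k hk =>
    lt_of_lt_of_le hn' (half_le_of_colorable hG hk)
  refine ⟨n, G, hG, not_minor_of_lt hlt, hcol, ?_⟩
  have e2 : ((t + 1 : ℕ) : ℕ∞) ≤ G.chromaticNumber := by
    rw [SimpleGraph.le_chromaticNumber_iff_colorable]
    intro m hm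
    have h3 := hcol m hm
    have h4 : (t : ℝ) < m := by nlinarith
    have h5 : t < m := by exact_mod_cast h4
    exact_mod_cast h5
  refine lt_of_lt_of_le ?_ e2
  exact_mod_cast hlt

/-- **Every large order** `n`, with the bound of the chromatic number. -/
theorem gap_n : ∃ n₀ : ℕ, ∀ n : ℕ, n₀ ≤ n → ∃ G : SimpleGraph (Fin n), G.indepNum ≤ 2 ∧
    (hadwigerNumber G : ℝ) < (1 / 2 - 1 / 10 ^ 13) * n ∧
    ∀ k : ℕ, G.Colorable k → (n : ℝ) / 2 ≤ k := by
  obtain ⟨n0, hn0⟩ := gap_order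
  refine ⟨n0, fun n hn => ?_⟩
  obtain ⟨G, hG, hh⟩ := hn0 n hn
  exact ⟨G, hG, hh, fun k hk => half_le_of_colorable hG hk⟩

end Vale.Agent.P060.HW
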