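import Vale.Agent.P060.H467.Samp

/-!
# P060 / H467: a constant factor below Hadwiger's bound, step 2

`reduction'`, `reduction_trunc'`: quantitative versions of `reduction`, `reduction_trunc` of `HW/RedThm`, `HW/Trunc`.
-/

set_option autoImplicit false

open scoped Classical

noncomputable section

namespace Vale.Agent.P060.HW

/-- `min ε 1 / 4` -/
def eps1 (ε : ℝ) : ℝ := min ε 1 / 4

/-- the fraction `δ` of the reduction -/
def dlt (ε : ℝ) : ℝ := min (eps1 ε / 100) (ε / (30 * (2 * (1 + eps1 ε) / eps1 ε)))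

/-- **Entropic reduction, quantitative.** If all graphs on `n` vertices with independence number at most two have a
clique minor of size `(1 / 2 - δ / 6) n`, then every triangle-free relation on a finite set carries a cheap
law with few adjacencies or a cheap symmetric coupling with few conflicts. -/
theorem reduction' (ε : ℝ) (hε : 0 < ε) : ∃ C : ℝ, ∃ n0 : ℕ, ∀ n : ℕ, n0 ≤ n →
    (∀ G : SimpleGraph (Fin n), G.indepNum ≤ 2 →
      (1 / 2 - dlt ε / 6) * (n : ℝ) ≤ (hadwigerNumber G : ℝ)) →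
    ∀ (X : Type*) [Fintype X] [Nonempty X] (Adj : X → X → Prop),
      (∀ x y, Adj x y → Adj y x) → (∀ x y z, Adj x y → Adj y z → Adj x z → False) →
      OutA Adj C (C / n) ∨
      OutB Adj ((1 + ε) * Real.log n + C) ε (C * (Real.log n) ^ 2 / n) := by
  set ε₁ : ℝ := min ε 1 / 4 with hε₁
  have hε₁0 : 0 < ε₁ := by
    have : 0 < min ε 1 := lt_min hε one_pos
    positivity
  have hε₁1 : ε₁ ≤ 1 / 4 := by
    have : min ε 1 ≤ 1 := min_le_right _ _
    rw [hε₁]; linarith only [this]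
  have hε₁2 : 4 * ε₁ ≤ ε := by
    have : min ε 1 ≤ ε := min_le_left _ _
    rw [hε₁]; linarith only [this]
  set M : ℝ := 2 * (1 + ε₁) / ε₁ with hM
  have hM0 : 0 < M := by positivity
  set δ : ℝ := min (ε₁ / 100) (ε / (30 * M)) with hδdef
  have hδ0 : 0 < δ := lt_min (by positivity) (by positivity)
  have hδε : δ ≤ ε₁ / 100 := min_le_left _ _
  have hδ1 : δ ≤ 1 / 400 := by linarith only [hδε, hε₁1]
  have hδM : 30 * M * δ ≤ ε := by
    have : δ ≤ ε / (30 * M) := min_le_right _ _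
    rw [le_div_iff₀ (by positivity)] at this
    linarith only [this]
  have hdl : dlt ε = δ := rfl
  set δ' : ℝ := δ / 2 with hδ'
  have hδ'0 : 0 < δ' := by rw [hδ']; linarith only [hδ0]
  set l : ℝ := 2 + Real.log (1 / δ') with hl
  set C : ℝ := max (max (4 * l) (24 * l / δ')) (max 5 (10 * M / δ ^ 2)) with hC
  have hC1 : 4 * l ≤ C := (le_max_left _ _).trans (le_max_left _ _)
  have hC2 : 24 * l / δ' ≤ C := (le_max_right _ _).trans (le_max_left _ _)
  have hC3 : 5 ≤ C := (le_max_left _ _).trans (le_max_right _ _)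
  have hC4 : 10 * M / δ ^ 2 ≤ C := (le_max_right _ _).trans (le_max_right _ _)
  have ev1 : ∀ᶠ n : ℕ in Filter.atTop, 1 ≤ Real.log n :=
    (Real.tendsto_log_atTop.comp tendsto_natCast_atTop_atTop).eventually_ge_atTop 1
  have ev2 : ∀ᶠ n : ℕ in Filter.atTop, Real.log n ≤ δ ^ 2 / 2 * n := by
    have h := Real.isLittleO_log_id_atTop.bound (show (0 : ℝ) < δ ^ 2 / 2 by positivity)
    have h2 := tendsto_natCast_atTop_atTop (R := ℝ) |>.eventually h
    filter_upwards [h2] with n hn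
    simp only [Real.norm_eq_abs, id] at hn
    rw [abs_of_nonneg (Nat.cast_nonneg n : (0 : ℝ) ≤ n)] at hn
    exact (le_abs_self _).trans hn
  have ev3 : ∀ᶠ n : ℕ in Filter.atTop, 10 / δ ^ 2 ≤ (n : ℝ) :=
    tendsto_natCast_atTop_atTop.eventually_ge_atTop _
  obtain ⟨n0, hn0⟩ := Filter.eventually_atTop.1 (ev1.and (ev2.and ev3))
  refine ⟨C, n0, fun n hn hHad X _ _ Adj hsym htri => ?_⟩
  obtain ⟨hlog, hlogn, hn3⟩ := hn0 n hn
  have h3 : 10 ≤ δ ^ 2 * n := by
    rw [div_le_iff₀ (by positivity)] at hn3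
    linarith only [hn3]
  have hnpos : (0 : ℝ) < n := by
    by_contra h
    have : δ ^ 2 * (n : ℝ) ≤ 0 := mul_nonpos_of_nonneg_of_nonpos (sq_nonneg δ) (not_lt.1 h)
    linarith only [this, h3]
  have hnpos' : 0 < n := by exact_mod_cast hnpos
  set p : ℕ := ⌈δ * n⌉₊ with hp
  set J : ℕ := ⌊δ ^ 2 * n / Real.log n⌋₊ with hJ
  have hp1 : δ * n ≤ p := Nat.le_ceil _
  have hp2 : (p : ℝ) ≤ δ * n + 1 := (Nat.ceil_lt_add_one (by (clear * - hε hnpos'; positivity))).le
  have hlogpos : 0 < Real.log n := by linarith only [hlog, hδ1, hδ0]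
  have hJ1 : (J : ℝ) ≤ δ ^ 2 * n / Real.log n := Nat.floor_le (by positivity)
  have h2le : 2 ≤ δ ^ 2 * n / Real.log n := by
    rw [le_div_iff₀ hlogpos]; linarith only [hlogn]
  have hJ2 : δ ^ 2 * n / (2 * Real.log n) ≤ J := by
    have h4 : δ ^ 2 * n / Real.log n < J + 1 := Nat.lt_floor_add_one _
    have h5 : δ ^ 2 * n / (2 * Real.log n) = δ ^ 2 * n / Real.log n / 2 := by
      field_simp
    rw [h5]; linarith only [h2le, h4]
  have hJ0 : 0 < J := by
    have : (0 : ℝ) < J := lt_of_lt_of_le (by positivity) hJ2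
    exact_mod_cast this
  have hp4 : 2 * p ≤ n / 2 := by
    have h4 : (4 * p : ℝ) ≤ n - 1 := by
      have : δ * n ≤ 1 / 400 * n := mul_le_mul_of_nonneg_right hδ1 hnpos.le
      have h6 : 4000 ≤ δ * n := by
        have h1 : δ ^ 2 * n = δ * (δ * n) := by ring
        rw [h1] at h3
        have h2 : δ * (δ * n) ≤ 1 / 400 * (δ * n) :=
          mul_le_mul_of_nonneg_right hδ1 (by positivity)
        linarith only [h2, h3]
      linarith only [h6, this, hp2, hδ1, hδ0]
    have h5 : (4 * p + 1 : ℝ) ≤ n := by linarith only [h4]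
    have h6 : 4 * p + 1 ≤ n := by exact_mod_cast h5
    omega
  have hmp : 2 * (n / 2 - 2 * p) + 4 * p ≤ n := by omega
  have hmn : n ≤ 2 * (n / 2 - 2 * p) + 4 * p + 1 := by omega
  set m : ℕ := n / 2 - 2 * p with hm
  obtain ⟨hm4, hJm, hq, hmJ, hn100⟩ := numerics hδ0 hε₁0 hε₁1 hδε hlog h3 hp2 hmn hJ1
  have hdn : 4000 ≤ δ * n := by
    have h1 : δ ^ 2 * n = δ * (δ * n) := by ring
    rw [h1] at h3
    have h2 : δ * (δ * n) ≤ 1 / 400 * (δ * n) :=
      mul_le_mul_of_nonneg_right hδ1 (by positivity)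
    linarith only [h2, h3]
  set p' : ℕ := ⌈δ' * n⌉₊ with hp'
  have hp1' : δ' * n ≤ p' := Nat.le_ceil _
  have hp2' : (p' : ℝ) ≤ δ' * n + 1 := (Nat.ceil_lt_add_one (mul_pos hδ'0 hnpos).le).le
  have hdn' : 2000 ≤ δ' * n := by
    have : δ' * n = δ * n / 2 := by rw [hδ']; ring
    rw [this]; linarith only [hdn]
  have hp3 : 3 ≤ p' := by
    have h6 : (3 : ℝ) ≤ p' := by linarith only [hp1', hdn']
    exact_mod_cast h6
  have hHad' : ∀ G : SimpleGraph (Fin n), G.indepNum ≤ 2 → n + m + 2 * p' ≤ 3 * hadwigerNumber G := by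
    intro G hG
    have h1 := hHad G hG
    rw [hdl] at h1
    have h2 : (m : ℝ) + 2 * p ≤ n / 2 := by
      have h3 : 2 * (m + 2 * p) ≤ n := by omega
      have h4 : (2 : ℝ) * ((m : ℝ) + 2 * p) ≤ n := by exact_mod_cast h3
      linarith only [h4]
    have h5 : δ' * n = δ * n / 2 := by rw [hδ']; ring
    have h6 : ((n + m + 2 * p' : ℕ) : ℝ) ≤ ((3 * hadwigerNumber G : ℕ) : ℝ) := by
      push_cast
      have h7 : 3 * ((1 / 2 - δ / 6) * (n : ℝ)) = 3 / 2 * n - δ * n / 2 := by ring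
      linarith only [h1, h2, h5, hp1, hp2', h7, hdn]
    exact_mod_cast h6
  rcases exists_samp' Adj hsym htri hHad' with ⟨D, hS, hD⟩ | ⟨D, hS, hD1, hD2⟩
  · left
    have := outA_of_samp Adj D hS hD hnpos' hp3 hδ'0 (by rw [hδ']; linarith only [hδ1, hδ0]) hp1'
    refine outA_mono hC1 ?_ this
    rw [← hl]
    calc 24 * l / (δ' * n) = 24 * l / δ' / n := by rw [div_div]
      _ ≤ C / n := div_le_div_of_nonneg_right hC2 hnpos.le
  · right
    exact outB_final hsym D hS hD1 hD2 hnpos' hJ0 hJm hδ0 hδ1 hε₁0 hε₁1 hε₁2 hlog h3 hm4 hq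
      hmJ hn100 hJ1 hJ2 hδM hC3 hC4

/-- **Entropic reduction, truncated form, quantitative.** -/
theorem reduction_trunc' (ε : ℝ) (hε : 0 < ε) : ∃ C : ℝ, ∃ n0 : ℕ, ∀ n : ℕ, n0 ≤ n →
    (∀ G : SimpleGraph (Fin n), G.indepNum ≤ 2 →
      (1 / 2 - dlt (min ε 1 / 40) / 6) * (n : ℝ) ≤ (hadwigerNumber G : ℝ)) →
    ∀ (X : Type*) [Fintype X] [Nonempty X] (Adj : X → X → Prop),
      (∀ x y, Adj x y → Adj y x) → (∀ x y z, Adj x y → Adj y z → Adj x z → False) →
      OutA Adj C (C / n) ∨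
      OutC Adj ((n : ℝ) ^ C) ε (C * (Real.log n) ^ 2 / n) := by
  set ε₁ : ℝ := min ε 1 / 40 with hε₁
  have hε₁0 : 0 < ε₁ := by
    have : 0 < min ε 1 := lt_min hε one_pos
    positivity
  have hε₁1 : ε₁ ≤ 1 / 40 := by
    have : min ε 1 ≤ 1 := min_le_right _ _
    rw [hε₁]; linarith only [this]
  have hε₁2 : 40 * ε₁ ≤ ε := by
    have : min ε 1 ≤ ε := min_le_left _ _
    rw [hε₁]; linarith only [this]
  obtain ⟨C, n0, hC⟩ := reduction' ε₁ hε₁0
  set C0 : ℝ := max C 1 with hC0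
  have hC01 : 1 ≤ C0 := le_max_right _ _
  have hC0C : C ≤ C0 := le_max_left _ _
  set C1 : ℝ := (2 + C0 + 1) / ε₁ + 1 with hC1
  have hC1C : 2 * C0 ≤ C1 := by
    have h1 : (2 + C0 + 1) / ε₁ ≥ (2 + C0 + 1) * 40 := by
      rw [ge_iff_le, le_div_iff₀ hε₁0]
      nlinarith
    rw [hC1]; linarith only [hε₁0, hε₁1, hC01, h1]
  have ev1 : ∀ᶠ n : ℕ in Filter.atTop, 1 ≤ Real.log n :=
    (Real.tendsto_log_atTop.comp tendsto_natCast_atTop_atTop).eventually_ge_atTop 1
  obtain ⟨n1, hn1⟩ := Filter.eventually_atTop.1 ev1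
  refine ⟨C1, max n0 n1, fun n hn hHad X _ _ Adj hsym htri => ?_⟩
  have hlog := hn1 n ((le_max_right _ _).trans hn)
  have hnpos : (0 : ℝ) < n := by
    by_contra h
    have h2 : (n : ℝ) = 0 := le_antisymm (not_lt.1 h) (Nat.cast_nonneg n)
    rw [h2, Real.log_zero] at hlog
    linarith only [hlog]
  rcases hC n ((le_max_left _ _).trans hn) hHad X Adj hsym htri with h | h
  · left
    refine outA_mono (by linarith only [hC1C, hC0C, hC01, hε₁1, hε₁0]) ?_ h
    exact div_le_div_of_nonneg_right (by linarith only [hC1C, hC0C, hC01, hε₁1, hε₁0]) hnpos.le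
  · right
    have h' : OutB Adj ((1 + ε₁) * Real.log n + C0) ε₁ (C0 * (Real.log n) ^ 2 / n) := by
      refine outB_mono (by linarith only [hC0C]) le_rfl ?_ h
      exact div_le_div_of_nonneg_right (mul_le_mul_of_nonneg_right hC0C (sq_nonneg _)) hnpos.le
    have h2 := outC_of_outB (by (clear * - hε hlog; positivity)) hε₁0 hε₁1 h'
    refine outC_mono ?_ (by linarith only [hε₁2, hε₁0]) ?_ h2
    · rw [Real.rpow_def_of_pos hnpos]
      have h3 : (2 : ℝ) ≤ Real.exp 1 := by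
        have := Real.add_one_le_exp (1 : ℝ); linarith only [this]
      calc 2 * Real.exp (((1 + ε₁) * Real.log n + C0 + 1) / ε₁)
          ≤ Real.exp 1 * Real.exp (((1 + ε₁) * Real.log n + C0 + 1) / ε₁) :=
            mul_le_mul_of_nonneg_right h3 (Real.exp_pos _).le
        _ = Real.exp (1 + ((1 + ε₁) * Real.log n + C0 + 1) / ε₁) := by rw [Real.exp_add]
        _ ≤ Real.exp (Real.log n * C1) := by
            apply Real.exp_le_exp.2
            rw [hC1]
            have e1 : ((1 + ε₁) * Real.log n + C0 + 1) / ε₁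
                ≤ Real.log n * ((2 + C0 + 1) / ε₁) := by
              rw [← mul_div_assoc]
              apply div_le_div_of_nonneg_right _ hε₁0.le
              (by_contra nlg; linarith only [nlg, mul_nonneg (sub_nonneg.2 hC01) (sub_nonneg.2 hlog), mul_nonneg (sub_nonneg.2 hε₁1) (sub_nonneg.2 hlog), mul_nonneg (sub_nonneg.2 hε₁1) (sub_nonneg.2 hε₁1), mul_nonneg (le_of_lt (sub_pos.2 hε₁0)) (sub_nonneg.2 hlog), mul_nonneg (le_of_lt (sub_pos.2 hε₁0)) (sub_nonneg.2 hε₁1), mul_pos (sub_pos.2 hε₁0) (sub_pos.2 hε₁0), mul_nonneg (le_of_lt (sub_pos.2 (not_le.1 nlg))) (sub_nonneg.2 hε₁1), mul_pos (sub_pos.2 (not_le.1 nlg)) (sub_pos.2 hε₁0)])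
            linarith only [e1, hlog]
    · calc 2 * (C0 * (Real.log n) ^ 2 / n) = (2 * C0) * (Real.log n) ^ 2 / n := by ring
        _ ≤ C1 * (Real.log n) ^ 2 / n :=
            div_le_div_of_nonneg_right (mul_le_mul_of_nonneg_right hC1C (sq_nonneg _)) hnpos.le

/-- for `ε = 1 / 2000` the loss is at least `10 ^ (-13)` -/
lemma dlt_num : (1 : ℝ) / 10 ^ 13 ≤ dlt (min (1 / 2000) 1 / 40) / 6 := by
  have h1 : (min (1 / 2000) 1 / 40 : ℝ) = 1 / 80000 := by
    rw [min_eq_left (by norm_num)]; norm_num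
  rw [h1]
  have h2 : eps1 (1 / 80000) = 1 / 320000 := by
    unfold eps1
    rw [min_eq_left (by norm_num)]; norm_num
  unfold dlt
  rw [h2]
  rcases min_choice ((1 : ℝ) / 320000 / 100) (1 / 80000 / (30 * (2 * (1 + 1 / 320000) / (1 / 320000)))) with h | h
  · rw [h]; norm_num
  · rw [h]; norm_num

end Vale.Agent.P060.HW
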